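import Crest.Agent.X262.Bl53.Defs
import Crest.Agent.X262.Hb64.Pt

/-!
# Row 262, (BL) (helper14): curves of degree zero in the factor of a lower model are contracted

* `ev_const`  : on a tree of degree zero in the factor `j` the coordinates are constant;
* `ev_ne`     : some coordinate is not zero;
* `lnkEqStmt` : `Bl53.LnkEqStmt`.
-/

set_option autoImplicit false

noncomputable section

namespace Crest.Agent.X262.BlLnk

open Crest.Agent.X277 Crest.Agent.X277.Lef Crest.Agent.X277.AN.G1 Crest.Agent.X277.BD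
open Crest.Agent.X262.Coh Crest.Agent.X262.Gwb Crest.Agent.X262.Chn Crest.Agent.X262.Bl53
open Crest.Agent.X262.Bub96 (Tr hv)
open Crest.Agent.X262.Hb64 (KP gen map_eq_of_same)
open Polynomial

section Tree

variable {k : Type} [Field k] {J : Type} {io : J → Type}

theorem hv_zero {f : k[X]} (h : f.natDegree ≤ 0) (x : Option k) : hv 0 f x = f.coeff 0 := by
  cases x with
  | none => rfl
  | some x =>
    change f.eval x = _
    rw [eq_C_of_natDegree_le_zero h, eval_C, coeff_C_zero]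

/-- on a tree of degree zero in the factor `j` the coordinates are constant -/
theorem ev_const {j : J} : ∀ (t : Tr k J io), t.OK → t.deg j = 0 → ∀ (x x' : t.Pt) (i : io j),
    t.ev x j i = t.ev x' j i
  | .leaf d g, h, h0, x, x', i => by
    have h1 : d j = 0 := h0
    have h2 : (g j i).natDegree ≤ 0 := h1 ▸ h.1 j i
    change hv (d j) (g j i) x.2 = hv (d j) (g j i) x'.2
    rw [h1, hv_zero h2, hv_zero h2]
  | .glue T p S, h, h0, x, x', i => by
    have h1 : T.deg j + S.deg j = 0 := h0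
    have hT := ev_const (j := j) T h.1 (by omega)
    have hS := ev_const (j := j) S h.2.1 (by omega)
    have key : ∀ y : (Tr.glue T p S).Pt,
        (Tr.glue T p S).ev y j i = T.ev (T.root, some p) j i := by
      rintro ⟨a | a, y⟩
      · exact hT (a, y) _ i
      · exact (hS (a, y) _ i).trans (h.2.2.2 j i)
    rw [key, key]

/-- some coordinate is not zero -/
theorem ev_ne (j : J) : ∀ (t : Tr k J io), t.OK → ∀ x : t.Pt, ∃ i, t.ev x j i ≠ 0
  | .leaf _ _, h, x => h.2 j x.2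
  | .glue T _ _, h, ⟨.inl a, y⟩ => ev_ne j T h.1 (a, y)
  | .glue _ _ S, h, ⟨.inr a, y⟩ => ev_ne j S h.2.1 (a, y)

end Tree

/-- the affine coordinates of a point given by homogeneous coordinates -/
theorem ratio {F E L ι : Type} [Field F] [Algebra ℂ F] [Field E] [Algebra ℂ E] [Field L]
    [Algebra ℂ L] {p : Plc F E} {α : E →ₐ[ℂ] L} {s : ι → F} {y : ι → L} {u : F} {c : L}
    (h1 : ∀ i, s i / u ∈ p.O) (h2 : ∀ i, y i = c * α (p.π (s i / u))) {i₀ : ι} (h0 : y i₀ ≠ 0)
    (i : ι) : s i / s i₀ ∈ p.O ∧ α (p.π (s i / s i₀)) = y i / y i₀ := by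
  have h3 : p.π (s i₀ / u) ≠ 0 := fun h => h0 (by rw [h2, h, map_zero, mul_zero])
  have hc : c ≠ 0 := fun h => h0 (by rw [h2, h, zero_mul])
  have hu : u ≠ 0 := fun h => h3 (by rw [h, div_zero, Plc.π_zero])
  rw [← div_div_div_cancel_right₀ hu (s i) (s i₀), Plc.π_div (h1 i) h3, map_div₀, h2 i, h2 i₀,
    mul_div_mul_left _ _ hc]
  exact ⟨Plc.div_mem (h1 i) h3, rfl⟩

theorem map_eq {K L : Type} [Field K] [Algebra ℂ K] [Field L] [Algebra ℂ L] {U V : PModel ℂ K}
    (h : Ge U V) {Q : SV} (μ ν : Hom Q (sv U)) (α : Q.F →ₐ[ℂ] L) (t : Tup K)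
    (ht : t = ownT (sv V)) (y : t.io → L) (h0 : ∃ i, y i ≠ 0)
    (h1 : ∃ (u : K) (c : L), (∀ i, t.y i / u ∈ μ.p.O) ∧ ∀ i, y i = c * α (μ.p.π (t.y i / u)))
    (h2 : ∃ (u : K) (c : L), (∀ i, t.y i / u ∈ ν.p.O) ∧ ∀ i, y i = c * α (ν.p.π (t.y i / u))) :
    (Mor.comp (mor h) μ).map = (Mor.comp (mor h) ν).map := by
  subst ht
  obtain ⟨i₀, h0⟩ := h0
  obtain ⟨u, c, h1, h1'⟩ := h1
  obtain ⟨u', c', h2, h2'⟩ := h2
  refine map_eq_of_same (X := sv V) (α := α) (KP.same_of_chart (i := i₀)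
    (fun i => ⟨⟨Algebra.mem_top, (ratio h1 h1' h0 i).1⟩, Algebra.mem_top⟩)
    (fun i => ⟨⟨Algebra.mem_top, (ratio h2 h2' h0 i).1⟩, Algebra.mem_top⟩) fun i => ?_)
  exact (ratio h1 h1' h0 i).2.trans (ratio h2 h2' h0 i).2.symm

/-- **curves of degree zero in the factor of a lower model are contracted** -/
theorem lnkEqStmt : LnkEqStmt := by
  intro K _ _ U V h m j hj d hd Q μ ν ⟨L, _, _, _, α, t, x, x', hok, hdeg, _, h1, h2⟩
  have h3 : t.deg j = 0 := hdeg ▸ hd
  obtain ⟨u, c, h4, h5⟩ := h2 j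
  exact map_eq h μ ν α (m.T j) hj (t.ev x j) (ev_ne j t hok x) (h1 j)
    ⟨u, c, h4, fun i => (ev_const t hok h3 x x' i).trans (h5 i)⟩

end Crest.Agent.X262.BlLnk
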