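import Crest.Agent.X262.BlLnk.Main
import Crest.Agent.X262.Rc72.Main
import Crest.Agent.X262.Bub96.Tree

/-!
# Row 262, (BL) (helper14): the vertex lemma

* `const_of_pluri` : with a pluricanonical form, every embedding of the field in `k(X)` is constant;
* `loc_A`          : the local ring of the centre is a localisation of a chart;
* `vertex`         : a map from `P^1` which is contracted by `(1 : t₀ : t₁)` and passes through the
  generic point of the centre is constant.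
-/

set_option autoImplicit false
set_option linter.style.haveILetI false

noncomputable section

namespace Crest.Agent.X262.BlLnk

open Crest.Agent.X277 Crest.Agent.X277.Lef Crest.Agent.X277.AN.G1 Crest.Agent.X277.BD
open Crest.Agent.X277.Res.Out (Coords)
open Crest.Agent.X277.Strat.Fac (two_pt un_plc exists_pt_le π_sum)
open Crest.Agent.X262.Coh Crest.Agent.X262.Gwb Crest.Agent.X262.Chn Crest.Agent.X262.Bl53
open Crest.Agent.X262.Bub96 (Tr hv Cop hv_mul hv_sum hv_C_mul)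
open Crest.Agent.X262.Vb (MH pv Vr)
open Crest.Agent.X262.Rc72 (aeval_mul)
open Polynomial hiding aeval aeval_mul
open MvPolynomial (aeval IsHomogeneous)
open scoped KaehlerDifferential

section Alg

variable {k σ : Type} [Field k] [Algebra ℂ k]

omit [Algebra ℂ k] in
theorem hv_pow {d : ℕ} {f : k[X]} (hf : f.natDegree ≤ d) (n : ℕ) (y : Option k) :
    hv (n * d) (f ^ n) y = hv d f y ^ n := by
  induction n with
  | zero => cases y <;> simp
  | succ n ih => rw [Nat.succ_mul, pow_succ, hv_mul (natDegree_pow_le_of_le n hf) hf, ih, pow_succ]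

omit [Algebra ℂ k] in
theorem hv_prod (s : Finset σ) {d : σ → ℕ} {f : σ → k[X]} (hf : ∀ i, (f i).natDegree ≤ d i)
    (y : Option k) : hv (∑ i ∈ s, d i) (∏ i ∈ s, f i) y = ∏ i ∈ s, hv (d i) (f i) y := by
  classical
  induction s using Finset.induction_on with
  | empty => cases y <;> simp
  | insert a s ha ih =>
    rw [Finset.sum_insert ha, Finset.prod_insert ha, Finset.prod_insert ha, hv_mul (hf a)
      ((natDegree_prod_le _ _).trans (Finset.sum_le_sum fun i _ => hf i)), ih]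

theorem hv_aeval {q : MvPolynomial σ ℂ} {D e : ℕ} (hq : q.IsHomogeneous D) {F : σ → k[X]}
    (hF : ∀ a, (F a).natDegree ≤ e) (y : Option k) :
    hv (D * e) (aeval F q) y = aeval (fun a => hv e (F a) y) q := by
  rw [MvPolynomial.aeval_def, MvPolynomial.aeval_def, MvPolynomial.eval₂_eq, MvPolynomial.eval₂_eq,
    hv_sum]
  refine Finset.sum_congr rfl fun s hs => ?_
  have h1 : ∑ i ∈ s.support, s i = D := by
    have h2 := hq (MvPolynomial.mem_support_iff.1 hs)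
    rw [← h2, Finsupp.weight_apply, Finsupp.sum]
    simp
  rw [Polynomial.algebraMap_apply, hv_C_mul, ← h1, Finset.sum_mul,
    hv_prod _ fun i => natDegree_pow_le_of_le _ (hF i)]
  simp only [hv_pow (hF _)]

/-- homogenisation -/
theorem exists_hm (i : σ) (p : MvPolynomial σ ℂ) {D : ℕ} (hD : p.totalDegree ≤ D) :
    ∃ q : MvPolynomial σ ℂ, q.IsHomogeneous D ∧ ∀ (B : Type) [Field B] [Algebra ℂ B] (v : σ → B),
      v i ≠ 0 → aeval v q = v i ^ D * aeval (fun j => v j / v i) p := by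
  have hh : (∑ e ∈ Finset.range (p.totalDegree + 1), MvPolynomial.X i ^ (D - e) *
      MvPolynomial.homogeneousComponent e p).IsHomogeneous D := by
    refine MvPolynomial.IsHomogeneous.sum _ _ _ fun e he => ?_
    have h1 := ((MvPolynomial.isHomogeneous_X ℂ i).pow (D - e)).mul
      (MvPolynomial.homogeneousComponent_isHomogeneous e p)
    rwa [one_mul, Nat.sub_add_cancel ((Nat.lt_succ_iff.1 (Finset.mem_range.1 he)).trans hD)] at h1
  refine ⟨_, hh, fun B _ _ v hv => ?_⟩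
  have h1 := aeval_mul hh (v i) fun j => v j / v i
  simp only [mul_div_cancel₀ _ hv] at h1
  rw [h1]
  conv_rhs => rw [← MvPolynomial.sum_homogeneousComponent p]
  simp [div_self hv]

/-- two points with the same equations -/
theorem exists_alg {F E : Type} [Field F] [Algebra ℂ F] [Field E] [Algebra ℂ E] (v : σ → F)
    (w : σ → E) (hgen : ∀ x : F, ∃ a c : MvPolynomial σ ℂ, x = aeval v a / aeval v c)
    (hker : ∀ p : MvPolynomial σ ℂ, aeval w p = 0 ↔ aeval v p = 0) :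
    ∃ γ : F →ₐ[ℂ] E, ∀ a, γ (v a) = w a := by
  let α := (aeval (R := ℂ) v : MvPolynomial σ ℂ →ₐ[ℂ] F).rangeRestrict
  have hs : Function.Surjective α := AlgHom.rangeRestrict_surjective _
  haveI : IsFractionRing (aeval (R := ℂ) v).range F := IsFractionRing.of_field _ _ fun x => by
    obtain ⟨a, c, h⟩ := hgen x
    exact ⟨α a, α c, h⟩
  let ψ : (aeval (R := ℂ) v).range →ₐ[ℂ] E := AlgHom.liftOfSurjective α hs (aeval w)
    fun q hq => (hker q).2 (congrArg Subtype.val hq)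
  have hψ : ∀ q, ψ (α q) = aeval w q := AlgHom.liftOfSurjective_apply _ _ _ _
  have hi : Function.Injective ψ := (injective_iff_map_eq_zero _).2 fun x hx => by
    obtain ⟨q, rfl⟩ := hs x
    exact Subtype.ext ((hker q).1 ((hψ q).symm.trans hx))
  refine ⟨IsFractionRing.liftAlgHom (A := (aeval (R := ℂ) v).range) hi, fun a => ?_⟩
  have h2 := IsFractionRing.lift_algebraMap (K := F) (g := (ψ : _ →+* E)) hi (α (MvPolynomial.X a))
  rw [← (hψ (MvPolynomial.X a)).trans (MvPolynomial.aeval_X _ _)]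
  exact Eq.trans (congrArg _ (MvPolynomial.aeval_X v a).symm) h2

/-- **with a pluricanonical form, every embedding in `k(X)` is constant** -/
theorem const_of_pluri {F : Type} [Field F] [Algebra ℂ F] (P : PModel ℂ F) {n : ℕ}
    (b : Module.Basis (Fin n) F Ω[F⁄ℂ]) {m : ℕ} (hm : 0 < m) {ω : F} (hω : ω ∈ P.H b m 0)
    (h0 : ω ≠ 0) (γ : F →ₐ[ℂ] RatFunc k) (x : F) :
    ∃ c : k, γ x = algebraMap k[X] (RatFunc k) (C c) := by
  classical
  let ι : k[X] →ₐ[ℂ] RatFunc k := IsScalarTower.toAlgHom ℂ k[X] (RatFunc k)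
  have hι : Function.Injective ι := IsFractionRing.injective k[X] (RatFunc k)
  obtain ⟨g, hg⟩ := IsLocalization.exist_integer_multiples_of_finite (nonZeroDivisors k[X])
    fun j => γ (P.y j / P.y 0)
  choose f hf using hg
  have hg0 : ι g ≠ 0 := fun h => nonZeroDivisors.ne_zero g.2 (hι (h.trans (map_zero ι).symm))
  have hf' : ∀ j, ι (f j) = ι g * γ (P.y j / P.y 0) := fun j => (hf j).trans (Algebra.smul_def _ _)
  let L := IntermediateField.adjoin ℂ ((Finset.univ.biUnion fun j => (f j).coeffs : Finset k) : Set k)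
  haveI : Algebra.EssFiniteType ℂ L := IntermediateField.essFiniteType_iff.2 ⟨_, rfl⟩
  have hl : ∀ j, ∃ q : L[X], q.map (algebraMap L k) = f j := fun j =>
    (mem_lifts _).1 ((lifts_iff_coeffs_subset_range _).2 fun c hc =>
      ⟨⟨c, IntermediateField.subset_adjoin _ _ (by
        simpa using ⟨j, hc⟩)⟩, rfl⟩)
  choose f' hf'' using hl
  have key : ∀ (q : MvPolynomial (Fin (P.N + 1)) ℂ) (d : ℕ), q.IsHomogeneous d →
      (aeval f' q = 0 ↔ aeval P.y q = 0) := fun q d hq => by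
    have h1 : ι ((aeval f' q).map (algebraMap L k)) =
        (ι g * (γ (P.y 0))⁻¹) ^ d * γ (aeval P.y q) := by
      rw [MvPolynomial.comp_aeval_apply _ γ, ← aeval_mul hq]
      refine (MvPolynomial.comp_aeval_apply _ (ι.comp (mapAlgHom L.val)) q).trans ?_
      refine congrArg (fun v => aeval v q) (funext fun j => ?_)
      change ι ((f' j).map (algebraMap L k)) = _
      rw [hf'', hf', map_div₀]
      ring
    have h2 : (ι g * (γ (P.y 0))⁻¹) ^ d ≠ 0 :=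
      pow_ne_zero _ (mul_ne_zero hg0 (inv_ne_zero ((_root_.map_ne_zero γ).2 (P.y_ne 0))))
    rw [← Polynomial.map_eq_zero_iff (algebraMap L k).injective, ← map_eq_zero_iff ι hι, h1,
      mul_eq_zero, or_iff_right h2, _root_.map_eq_zero]
  have hn : ¬ Rc72.NC f' := fun hn => by
    obtain ⟨q, d, hq, h1, h2⟩ := Rc72.exists_form P b hm hω h0 (fun q d hq => (key q d hq).2) hn
    exact h1 ((key q d hq).1 h2)
  obtain ⟨c, g', hc⟩ := Rc72.exists_const_of_not_NC hn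
  let S : Subalgebra ℂ (RatFunc k) := (ι.comp (IsScalarTower.toAlgHom ℂ k k[X])).range
  have hS : ∀ z, z ∈ S ↔ ∃ c : k, z = ι (C c) := fun z => ⟨fun ⟨c, h⟩ => ⟨c, h.symm⟩,
    fun ⟨c, h⟩ => ⟨c, h.symm⟩⟩
  have hd : ∀ a c : k, ι (C a) / ι (C c) = ι (C (a / c)) := fun a c =>
    (map_div₀ ((ι : k[X] →+* RatFunc k).comp C) a c).symm
  have h3 : ∀ j, γ (P.y j / P.y 0) ∈ S := fun j => by
    have h4 := hf' 0
    rw [div_self (P.y_ne 0), map_one, mul_one] at h4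
    have h5 : γ (P.y j / P.y 0) = ι (f j) / ι (f 0) := by
      rw [hf' j, h4, mul_div_cancel_left₀ _ hg0]
    have h6 : ι (g'.map (algebraMap L k)) ≠ 0 := fun h => hg0 (by
      rw [← h4, ← hf'', hc, Polynomial.map_mul, map_mul, h, mul_zero])
    rw [h5, ← hf'', ← hf'', hc, hc, Polynomial.map_mul, Polynomial.map_mul, map_mul, map_mul,
      mul_div_mul_right _ _ h6, map_C, map_C, hd]
    exact (hS _).2 ⟨_, rfl⟩
  obtain ⟨a, ha, c', hc', -, rfl⟩ := P.frac x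
  obtain ⟨a₁, h4⟩ := (hS _).1 (Rc72.chart_le P γ S h3 ha)
  obtain ⟨c₁, h5⟩ := (hS _).1 (Rc72.chart_le P γ S h3 hc')
  exact ⟨a₁ / c₁, by rw [map_div₀, h4, h5, hd]; rfl⟩

end Alg

section Loc

variable {K : Type} [Field K] [Algebra ℂ K] {V : PModel ℂ K} {Z : SV} {i : Hom Z (sv V)}

/-- the local ring of the centre is a localisation of a chart -/
theorem loc_A (lcl : ∀ z : Z.Pt, ∀ f ∈ i.p.O, ∃ c ∈ (lp (i.map z)).O, i.p.π c ≠ 0 ∧
    c * f ∈ (lp (i.map z)).O) {i₀ : Fin (V.N + 1)} (hA : V.A i₀ ≤ i.p.O) {f : K} (hf : f ∈ i.p.O) :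
    ∃ a ∈ V.A i₀, ∃ c ∈ V.A i₀, i.p.π c ≠ 0 ∧ f * c = a := by
  obtain ⟨z⟩ : Nonempty Z.Pt := inferInstance
  obtain ⟨x, hx, hle⟩ := exists_pt_le (P := V) (q := i.p) hA
  have h1 : ∀ f ∈ (lp x).O, ∃ a ∈ V.A i₀, ∃ c ∈ V.A i₀, i.p.π c ≠ 0 ∧ f * c = a := fun f hf => by
    obtain ⟨a, ha, c, hc, h0, h⟩ := (mem_lp_iff hx).1 hf
    exact ⟨a, ha, c, hc, Strat.Fac.π_ne hle (Res.Log.un_iff.2 h0), h⟩
  have h2 : ∀ f ∈ (lp (i.map z)).O, ∃ a ∈ V.A i₀, ∃ c ∈ V.A i₀, i.p.π c ≠ 0 ∧ f * c = a :=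
    fun f hf => by
    obtain ⟨a, ha, c, hc, h0, h⟩ := two_pt (W := i.p.O) (fun _ h => i.mem_O h) hle hf
    obtain ⟨a₁, ha₁, a₂, ha₂, h3, h4⟩ := h1 a ha
    obtain ⟨c₁, hc₁, c₂, hc₂, h5, h6⟩ := h1 c hc
    refine ⟨a₁ * c₂, mul_mem ha₁ hc₂, c₁ * a₂, mul_mem hc₁ ha₂, ?_, by rw [← h4, ← h6, ← h]; ring⟩
    rw [i.p.π_mul (hA hc₁) (hA ha₂), ← h6, i.p.π_mul (hle hc) (hA hc₂)]
    exact mul_ne_zero (mul_ne_zero (un_plc.1 h0) h5) h3
  obtain ⟨c, hc, h0, h⟩ := lcl z f hf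
  obtain ⟨a₁, ha₁, a₂, ha₂, h3, h4⟩ := h2 _ h
  obtain ⟨c₁, hc₁, c₂, hc₂, h5, h6⟩ := h2 c hc
  refine ⟨a₁ * c₂, mul_mem ha₁ hc₂, c₁ * a₂, mul_mem hc₁ ha₂, ?_, by rw [← h4, ← h6]; ring⟩
  rw [i.p.π_mul (hA hc₁) (hA ha₂), ← h6, i.p.π_mul (i.mem_O hc) (hA hc₂)]
  exact mul_ne_zero (mul_ne_zero h0 h5) h3

theorem surj_π (hi : IsEmb i) (x : Z.F) : ∃ f ∈ i.p.O, i.p.π f = x := by
  obtain ⟨z, hz, -⟩ := exists_pt_le (P := Z.P) (i := 0) (q := Plc.ofHom (AlgHom.id ℂ Z.F)) le_top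
  obtain ⟨a, ha, c, hc, h0, rfl⟩ := Z.P.frac x
  obtain ⟨f, hf, rfl⟩ := hi.2 z a (A_le hz ha)
  obtain ⟨g, hg, rfl⟩ := hi.2 z c (A_le hz hc)
  exact ⟨f / g, Plc.div_mem (i.mem_O hf) h0, Plc.π_div (i.mem_O hf) h0⟩

theorem core {t : Fin 2 → K} (hi : IsEmb i) (lcl : ∀ z : Z.Pt, ∀ f ∈ i.p.O,
      ∃ c ∈ (lp (i.map z)).O, i.p.π c ≠ 0 ∧ c * f ∈ (lp (i.map z)).O) (ht : Coords i.p.O t)
    (hp : ∃ (n : ℕ) (β : Module.Basis (Fin n) Z.F Ω[Z.F⁄ℂ]) (k : ℕ) (ω : Z.F),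
      0 < k ∧ ω ∈ Z.P.H β k 0 ∧ ω ≠ 0)
    {k : Type} [Field k] [Algebra ℂ k] [IsAlgClosed k]
    {e : ℕ} (F : Fin (V.N + 1) → k[X]) (hdeg : ∀ a, (F a).natDegree ≤ e)
    (hcop : ∀ x, ∃ a, hv e (F a) x ≠ 0) (g : Fin 3 → k) (hg : ∃ b, g b ≠ 0)
    (heq : ∀ (D : ℕ) (P Q : MvPolynomial (Fin (V.N + 1)) ℂ), P.IsHomogeneous D →
      Q.IsHomogeneous D → ∀ b b' : Fin 3,
      aeval V.y Q * ![1, t 0, t 1] b = aeval V.y P * ![1, t 0, t 1] b' → ∀ x : k,
        aeval (fun a => (F a).eval x) Q * g b = aeval (fun a => (F a).eval x) P * g b')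
    (β : Z.F →ₐ[ℂ] k) (u₀ : Option k) (h0 : ∃ (u : K) (c : k), (∀ a, V.y a / u ∈ i.p.O) ∧
      ∀ a, hv e (F a) u₀ = c * β (i.p.π (V.y a / u))) : e = 0 := by
  obtain ⟨u, c, h1, h2⟩ := h0
  obtain ⟨i₀, hi₀⟩ := hcop u₀
  have hr := ratio h1 h2 hi₀
  let ι : k[X] →ₐ[ℂ] RatFunc k := IsScalarTower.toAlgHom ℂ k[X] (RatFunc k)
  have hι : Function.Injective ι := IsFractionRing.injective k[X] (RatFunc k)
  have hF : ι (F i₀) ≠ 0 := fun h => hi₀ (by
    rw [hι (h.trans (map_zero ι).symm)]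
    exact Bub96.hv_zero _ _)
  let e1 : MvPolynomial (Fin (V.N + 1)) ℂ →ₐ[ℂ] K := aeval fun a => V.y a / V.y i₀
  let e2 : MvPolynomial (Fin (V.N + 1)) ℂ →ₐ[ℂ] RatFunc k := aeval fun a => ι (F a) / ι (F i₀)
  let e0 : MvPolynomial (Fin (V.N + 1)) ℂ →ₐ[ℂ] Z.F := aeval fun a => i.p.π (V.y a / V.y i₀)
  have h01 : ∀ p, e1 p ∈ i.p.O ∧ i.p.π (e1 p) = e0 p := Plc.π_aeval fun a => (hr a).1
  have hιa : ∀ q : MvPolynomial (Fin (V.N + 1)) ℂ, ι (aeval F q) = aeval (fun a => ι (F a)) q :=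
    fun q => MvPolynomial.comp_aeval_apply _ ι q
  have hβ : ∀ p, aeval (fun a => hv e (F a) u₀ / hv e (F i₀) u₀) p = β (e0 p) := fun p =>
    ((MvPolynomial.comp_aeval_apply _ β p).trans
      (congrArg (fun v => aeval v p) (funext fun a => (hr a).2))).symm
  -- equations
  have KE : ∀ P Q (b b' : Fin 3), e1 Q * ![1, t 0, t 1] b = e1 P * ![1, t 0, t 1] b' →
      e2 Q * ι (C (g b)) = e2 P * ι (C (g b')) ∧ g b * β (e0 Q) = g b' * β (e0 P) :=
    fun P Q b b' h => by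
    obtain ⟨P', hP, hP'⟩ := exists_hm i₀ P (le_max_left _ Q.totalDegree)
    obtain ⟨Q', hQ, hQ'⟩ := exists_hm i₀ Q (le_max_right P.totalDegree _)
    have h3 := heq _ P' Q' hP hQ b b' (by
      rw [hP' K V.y (V.y_ne _), hQ' K V.y (V.y_ne _), mul_assoc, mul_assoc, h])
    have h4 : C (g b) * aeval F Q' = C (g b') * aeval F P' := Polynomial.funext fun x => by
      have h5 : ∀ q : MvPolynomial (Fin (V.N + 1)) ℂ,
          (aeval F q).eval x = aeval (fun a => (F a).eval x) q := fun q => by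
        simpa using MvPolynomial.comp_aeval_apply F
          ((Polynomial.aeval x : k[X] →ₐ[k] k).restrictScalars ℂ) q
      rw [eval_mul, eval_mul, eval_C, eval_C, h5, h5, mul_comm, h3 x, mul_comm]
    have h5 := congrArg ι h4
    rw [map_mul, map_mul, hιa, hιa, hP' _ _ hF, hQ' _ _ hF, mul_left_comm,
      mul_left_comm (ι (C (g b')))] at h5
    have h6 := congrArg (fun f => hv (max P.totalDegree Q.totalDegree * e) f u₀) h4
    simp only [hv_C_mul, hv_aeval hP hdeg, hv_aeval hQ hdeg] at h6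
    rw [hP' k (fun a => hv e (F a) u₀) hi₀, hQ' k (fun a => hv e (F a) u₀) hi₀, hβ, hβ,
      mul_left_comm, mul_left_comm (g b')] at h6
    exact ⟨by rw [mul_comm, mul_left_cancel₀ (pow_ne_zero _ hF) h5, mul_comm],
      mul_left_cancel₀ (pow_ne_zero _ hi₀) h6⟩
  have hC : ∀ a : k, ι (C a) = 0 ↔ a = 0 := fun a => by rw [map_eq_zero_iff ι hι, C_eq_zero]
  have K1 : ∀ p, e1 p = 0 → e2 p = 0 := fun p h => by
    obtain ⟨b, hb⟩ := hg
    have h3 := (KE 0 p b b (by rw [h, map_zero])).1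
    rw [map_zero, zero_mul, mul_eq_zero, hC] at h3
    exact h3.resolve_right hb
  have K2 : ∀ p, e2 p = 0 → e0 p = 0 := fun p h => by
    obtain ⟨q, hq, hq'⟩ := exists_hm i₀ p le_rfl
    have h3 : aeval F q = 0 := hι (by
      rw [hιa, hq' _ _ hF, map_zero]
      exact mul_eq_zero_of_right _ h)
    have h4 := hv_aeval hq hdeg u₀
    rw [h3, Bub96.hv_zero, hq' k (fun a => hv e (F a) u₀) hi₀, eq_comm, mul_eq_zero,
      or_iff_right (pow_ne_zero _ hi₀), hβ] at h4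
    exact (_root_.map_eq_zero β).1 h4
  have hA : V.A i₀ ≤ i.p.O := Algebra.adjoin_le (Set.range_subset_iff.2 fun a => (hr a).1)
  have hO : ∀ f ∈ i.p.O, ∃ a c, e0 c ≠ 0 ∧ f * e1 c = e1 a := fun f hf => by
    obtain ⟨a, ha, c, hc, h3, h4⟩ := loc_A lcl hA hf
    obtain ⟨a, rfl⟩ := exists_poly ha
    obtain ⟨c, rfl⟩ := exists_poly hc
    exact ⟨a, c, (h01 c).2 ▸ h3, h4⟩
  choose P Q hQ hPQ using fun l => hO (t l) (ht.mem l)
  have hP : ∀ l, e0 (P l) = 0 := fun l => by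
    have h3 : i.p.π (t l) = 0 := by_contra fun h => (ht.van l).2 (un_plc.2 h)
    rw [← (h01 _).2, ← hPQ, i.p.π_mul (ht.mem l) (h01 _).1, h3, zero_mul]
  have hE := fun l : Fin 2 => KE (P l) (Q l) l.succ 0 (by
    rw [← hPQ]
    fin_cases l <;> simp [mul_comm])
  have hgl : ∀ l : Fin 2, g l.succ = 0 := fun l => by
    have h3 := (hE l).2
    rw [hP, map_zero, mul_zero, mul_eq_zero, _root_.map_eq_zero] at h3
    exact h3.resolve_right (hQ l)
  have hg0 : g 0 ≠ 0 := fun h => by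
    obtain ⟨b, hb⟩ := hg
    exact hb (Fin.cases h hgl b)
  have K3 : ∀ l, e2 (P l) = 0 := fun l => by
    have h3 := (hE l).1
    rw [hgl, C_0, map_zero, mul_zero, eq_comm, mul_eq_zero, hC] at h3
    exact h3.resolve_right hg0
  have K4 : ∀ p, e0 p = 0 → e2 p = 0 := fun p h => by
    obtain ⟨r, hr1, hr2⟩ := ht.gen (e1 p) ⟨(h01 p).1, fun h' => un_plc.1 h' ((h01 p).2.trans h)⟩
    choose A B hB hAB using fun l => hO (r l) (hr1 l)
    have h3 := K1 (p * (B 0 * B 1 * Q 0 * Q 1) -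
        (A 0 * B 1 * Q 1 * P 0 + A 1 * B 0 * Q 0 * P 1)) (by
      simp only [map_sub, map_add, map_mul]
      rw [hr2, Fin.sum_univ_two, ← hAB, ← hAB, ← hPQ, ← hPQ]
      ring)
    rw [map_sub, map_add, map_mul, map_mul _ _ (P 0), map_mul _ _ (P 1), K3, K3, mul_zero,
      mul_zero, add_zero, sub_zero, mul_eq_zero] at h3
    refine h3.resolve_right fun h4 => ?_
    have h5 := K2 _ h4
    simp only [map_mul, mul_eq_zero, hB, hQ, or_self] at h5
  obtain ⟨γ, hγ⟩ := exists_alg (fun a => i.p.π (V.y a / V.y i₀)) (fun a => ι (F a) / ι (F i₀))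
    (fun x => by
      obtain ⟨f, hf, rfl⟩ := surj_π hi x
      obtain ⟨a, c, h3, h4⟩ := hO f hf
      refine ⟨a, c, eq_div_of_mul_eq h3 ?_⟩
      change _ * e0 c = e0 a
      rw [← (h01 _).2, ← (h01 _).2, ← h4, i.p.π_mul hf (h01 _).1])
    fun p => ⟨K2 p, K4 p⟩
  obtain ⟨n, b, m, ω, hm, hω, hω0⟩ := hp
  have h3 : ∀ a, ∃ c : k, F a = C c * F i₀ := fun a => by
    obtain ⟨c, hc⟩ := const_of_pluri Z.P b hm hω hω0 γ (i.p.π (V.y a / V.y i₀))
    rw [hγ, div_eq_iff hF] at hc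
    exact ⟨c, hι (hc.trans (map_mul ι _ _).symm)⟩
  choose c' hc' using h3
  have h4 : ∀ x, hv e (F i₀) x ≠ 0 := fun x h => by
    obtain ⟨a, ha⟩ := hcop x
    exact ha (by rw [hc' a, hv_C_mul, h, mul_zero])
  have h5 : (F i₀).natDegree = e := natDegree_eq_of_le_of_coeff_ne_zero (hdeg i₀) (h4 none)
  by_contra he
  obtain ⟨x, hx⟩ := IsAlgClosed.exists_root (F i₀) fun h =>
    he (h5.symm.trans (natDegree_eq_of_degree_eq_some h))
  exact h4 (some x) hx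

theorem core' {t : Fin 2 → K} (hi : IsEmb i) (lcl : ∀ z : Z.Pt, ∀ f ∈ i.p.O,
      ∃ c ∈ (lp (i.map z)).O, i.p.π c ≠ 0 ∧ c * f ∈ (lp (i.map z)).O) (ht : Coords i.p.O t)
    (hp : ∃ (n : ℕ) (β : Module.Basis (Fin n) Z.F Ω[Z.F⁄ℂ]) (k : ℕ) (ω : Z.F),
      0 < k ∧ ω ∈ Z.P.H β k 0 ∧ ω ≠ 0)
    {k : Type} [Field k] [Algebra ℂ k] [IsAlgClosed k] (s s' : Tup K) (hs : s = ownT (sv V))
    (hs' : s' = tupG t) {e : ℕ} (F : s.io → k[X]) (hdeg : ∀ a, (F a).natDegree ≤ e)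
    (hcop : ∀ x, ∃ a, hv e (F a) x ≠ 0) (g : s'.io → k) (hg : ∃ b, g b ≠ 0)
    (heq : ∀ (D : ℕ) (P Q : MvPolynomial s.io ℂ), P.IsHomogeneous D → Q.IsHomogeneous D →
      ∀ b b', aeval s.y Q * s'.y b = aeval s.y P * s'.y b' → ∀ x : k,
        aeval (fun a => (F a).eval x) Q * g b = aeval (fun a => (F a).eval x) P * g b')
    (β : Z.F →ₐ[ℂ] k) (u₀ : Option k) (h0 : ∃ (u : K) (c : k), (∀ a, s.y a / u ∈ i.p.O) ∧
      ∀ a, hv e (F a) u₀ = c * β (i.p.π (s.y a / u))) : e = 0 := by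
  subst hs hs'
  exact core hi lcl ht hp F hdeg hcop g hg heq β u₀ h0

end Loc

theorem mh_eqn {J : Type} [DecidableEq J] {io : J → Type} {j j' : J} {D : ℕ}
    {P : MvPolynomial (io j) ℂ} (hP : P.IsHomogeneous D) (b : io j') :
    MH (MvPolynomial.rename (Sigma.mk j) P * MvPolynomial.X ⟨j', b⟩ : MvPolynomial (Vr io) ℂ)
      (D • Pi.single j 1 + Pi.single j' 1) := by
  refine MvPolynomial.IsWeightedHomogeneous.mul (fun s hs => ?_)
    (MvPolynomial.isWeightedHomogeneous_X _ _ _)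
  obtain ⟨u, rfl, hu⟩ := MvPolynomial.coeff_rename_ne_zero _ _ _ hs
  rw [← hP hu, Finsupp.weight_apply, Finsupp.weight_apply,
    Finsupp.sum_mapDomain_index (by simp) (by simp [add_smul]), Finsupp.sum, Finsupp.sum,
    Finset.sum_smul]
  simp

/-- **the vertex lemma** -/
theorem vertex {K : Type} [Field K] [Algebra ℂ K] (V : PModel ℂ K) {Z : SV} (i : Hom Z (sv V))
    (t : Fin 2 → K) (hi : IsEmb i) (lcl : ∀ z : Z.Pt, ∀ f ∈ i.p.O,
      ∃ c ∈ (lp (i.map z)).O, i.p.π c ≠ 0 ∧ c * f ∈ (lp (i.map z)).O) (ht : Coords i.p.O t)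
    (hp : ∃ (n : ℕ) (β : Module.Basis (Fin n) Z.F Ω[Z.F⁄ℂ]) (k : ℕ) (ω : Z.F),
      0 < k ∧ ω ∈ Z.P.H β k 0 ∧ ω ≠ 0)
    {J : Type} [DecidableEq J] (T : J → Tup K) (jH jG : J) (hH : T jH = ownT (sv V))
    (hG : T jG = tupG t) {k : Type} [Field k] [Algebra ℂ k] [IsAlgClosed k] (d : J → ℕ)
    (F : ∀ j, (T j).io → k[X]) (hc : Cop d F) (hon : ∀ u, OnT T fun j a => hv (d j) (F j a) u)
    (hd : d jG = 0) (β : Z.F →ₐ[ℂ] k) (u₀ : Option k)
    (h0 : ∃ (u : K) (c : k), (∀ a, (T jH).y a / u ∈ i.p.O) ∧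
      ∀ a, hv (d jH) (F jH a) u₀ = c * β (i.p.π ((T jH).y a / u))) : d jH = 0 := by
  have h1 : ∀ b x, hv (d jG) (F jG b) x = (F jG b).coeff 0 := fun b x => by
    rw [hd, hv_zero (hd ▸ hc.1 jG b)]
  refine core' hi lcl ht hp (T jH) (T jG) hH hG (F jH) (hc.1 jH) (hc.2 jH)
    (fun b => (F jG b).coeff 0) ((hc.2 jG none).imp fun b hb => h1 b none ▸ hb)
    (fun D P Q hP hQ b b' h x => ?_) β u₀ h0
  have h2 := hon (some x) _ _ ((mh_eqn hQ b).sub (mh_eqn hP b')) (by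
    simpa [pv, MvPolynomial.aeval_rename, Function.comp_def, sub_eq_zero] using h)
  simp only [pv, map_sub, map_mul, MvPolynomial.aeval_rename, MvPolynomial.aeval_X, h1,
    sub_eq_zero] at h2
  exact h2

end Crest.Agent.X262.BlLnk
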